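import Vale.Agent.P235.Nested

/-!
P235: series-parallel graphs, path decompositions of bounded adhesion, and their nesting along cut
vertices embed into l1 with bounded distortion.
-/

namespace Vale.Agent.Results.P235.SeriesParallelNested

open Vale.Agent.P235

theorem result :
    ∀ (V : Type) [Fintype V] (G : SimpleGraph V) (ℓ : Sym2 V → ℝ), (∀ e, 0 ≤ ℓ e) →
      (∀ k r : ℕ, Nested k r G → EmbedsL1 G ℓ (54 * (2 * 1000 ^ k) ^ r)) ∧
      (InNetwork G → EmbedsL1 G ℓ 54) ∧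
      (∀ (k : ℕ) (lo hi : V → ℕ), (∀ v, lo v ≤ hi v) → (∀ a b, G.Adj a b → lo a ≤ hi b) →
        (∀ (t : ℕ) (s : Finset V), (∀ v ∈ s, lo v ≤ t ∧ t ≤ hi v) → s.card ≤ k) →
        EmbedsL1 G ℓ (54 * (2 * 1000 ^ k))) ∧
      (∀ (A : Set V) (k r : ℕ),
        (∀ K : G.ConnectedComponent, ∀ s : Finset V,
          (∀ a ∈ s, a ∈ A ∧ G.connectedComponentMk a = K) → s.card ≤ k) →
        Nested k r (removeVerts G A) → Nested k (r + 1) G) ∧
      (∀ (k : ℕ) (lo hi : V → ℕ) (C : ℝ), 0 ≤ C → PathAdhesion G k lo hi →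
        (∀ D : Set V, {v | lo v < hi v} ⊆ D → EmbedsL1 (removeVerts G D) ℓ C) →
        EmbedsL1 G ℓ (1000 ^ k * (C + 1))) ∧
      ∀ (c : Sym2 V → Sym2 V) (C : ℝ), 0 ≤ C → CyclesMonochrome G c →
        (∀ i, EmbedsL1 (piece G c i) ℓ C) → EmbedsL1 G ℓ C := by
  classical
  intro V _ G ℓ hℓ
  refine ⟨fun k r h => nested_embeds hℓ k r G h, fun h => inNetwork_embeds hℓ h,
    fun k lo hi h1 h2 h3 => ?_, fun A k r hA h => nested_delete A hA h,
    fun k lo hi C hC hP hD => pathAdhesion_embeds hℓ hP hC hD,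
    fun c C hC hc h => block_embeds hℓ hc hC h⟩
  simpa using nested_embeds hℓ k 1 G (nested_of_pathwidth lo hi h1 h2 h3)

end Vale.Agent.Results.P235.SeriesParallelNested
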